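import Mathlib

/-!
Symmetric sign matrices indexed by `Sym2 (Fin n) → Bool`: flip counting for kernel vectors.
-/

namespace Vale.Agent.P160K

open Finset

variable {n : ℕ}

/-- Sign configurations: one Boolean per unordered pair (diagonal included). -/
abbrev Sgn (n : ℕ) := Sym2 (Fin n) → Bool

/-- The entry `a_ij ∈ {1,-1}` of the symmetric matrix attached to a configuration. -/
noncomputable def entry (σ : Sgn n) (i j : Fin n) : ℝ := if σ s(i, j) then 1 else -1

/-- The `i`-th coordinate of `A v`. -/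
noncomputable def rowSum (σ : Sgn n) (i : Fin n) (v : Fin n → ℝ) : ℝ := ∑ j, entry σ i j * v j

/-- The support of a vector. -/
noncomputable def supp (v : Fin n → ℝ) : Finset (Fin n) := univ.filter fun i => v i ≠ 0

lemma mem_supp {v : Fin n → ℝ} {i : Fin n} : i ∈ supp v ↔ v i ≠ 0 := by
  simp [supp]

lemma entry_ne_zero (σ : Sgn n) (i j : Fin n) : entry σ i j ≠ 0 := by
  unfold entry; split_ifs <;> norm_num

/-! ### Double counting under flips -/

lemma flip_double_count {K G : Type*} [DecidableEq K] [Fintype K] [Fintype G] [DecidableEq G]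
    (mask : G → K → Bool) (E E' : Finset (K → Bool)) (m : ℕ)
    (h₁ : ∀ σ ∈ E', ∀ g, (fun k => xor (σ k) (mask g k)) ∈ E)
    (h₂ : ∀ τ ∈ E, (univ.filter fun g => (fun k => xor (τ k) (mask g k)) ∈ E').card ≤ m) :
    Fintype.card G * E'.card ≤ m * E.card := by
  classical
  have key : ((univ : Finset G) ×ˢ E').card ≤
      (E.sigma fun τ => univ.filter fun g => (fun k => xor (τ k) (mask g k)) ∈ E').card := by
    apply Finset.card_le_card_of_injOn
      (fun p => (⟨fun k => xor (p.2 k) (mask p.1 k), p.1⟩ : Σ _ : K → Bool, G))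
    · rintro ⟨g, σ⟩ hp
      simp only [mem_coe, mem_product, mem_univ, true_and] at hp
      simp only [mem_coe, mem_sigma, mem_filter, mem_univ, true_and]
      refine ⟨h₁ σ hp g, ?_⟩
      convert hp using 1
      funext k
      simp
    · rintro ⟨g, σ⟩ _ ⟨g', σ'⟩ _ h
      simp only [Sigma.mk.injEq, heq_eq_eq] at h
      obtain ⟨h1, rfl⟩ := h
      have : σ = σ' := by
        funext k
        have := congrFun h1 k
        simpa using this
      rw [this]
  rw [card_product, card_univ, card_sigma] at key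
  calc Fintype.card G * E'.card ≤ _ := key
    _ ≤ ∑ _τ ∈ E, m := sum_le_sum h₂
    _ = m * E.card := by simp [mul_comm]

/-! ### The Littlewood-Offord bound via Sperner -/

lemma littlewood_offord {ι : Type*} [Fintype ι] [DecidableEq ι] (A : ι → ℝ)
    (hA : ∀ i, A i ≠ 0) (t : ℝ) :
    (univ.filter fun g : ι → Bool => t + ∑ i, (if g i then -A i else A i) = 0).card ≤
      (Fintype.card ι).choose (Fintype.card ι / 2) := by
  classical
  -- the set of coordinates contributing `-|A i|`
  let U : (ι → Bool) → Finset ι := fun g =>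
    univ.filter fun i => (g i = true ∧ 0 < A i) ∨ (g i = false ∧ A i < 0)
  have hterm : ∀ (g : ι → Bool) (i : ι),
      (if g i then -A i else A i) = |A i| - 2 * (if i ∈ U g then |A i| else 0) := by
    intro g i
    have hi := hA i
    rcases lt_or_gt_of_ne hi with h | h
    · cases hg : g i <;> simp [U, hg, h, abs_of_neg, not_lt.mpr h.le] <;> ring
    · cases hg : g i <;> simp [U, hg, h, abs_of_pos, not_lt.mpr h.le] <;> ring
  have hsum : ∀ g : ι → Bool, t + ∑ i, (if g i then -A i else A i) =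
      t + ∑ i, |A i| - 2 * ∑ i ∈ U g, |A i| := by
    intro g
    simp_rw [hterm g, sum_sub_distrib, ← mul_sum]
    rw [sum_ite_mem, univ_inter]
    ring
  set F := univ.filter fun g : ι → Bool => t + ∑ i, (if g i then -A i else A i) = 0 with hF
  have hinj : Set.InjOn U F := by
    intro g _ g' _ h
    funext i
    have h' : (i ∈ U g) ↔ (i ∈ U g') := by rw [h]
    simp only [U, mem_filter, mem_univ, true_and] at h'
    rcases lt_or_gt_of_ne (hA i) with hi | hi
    · have h1 : ¬ (0 < A i) := not_lt.mpr hi.le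
      cases hg : g i <;> cases hg' : g' i <;> simp_all
    · have h1 : ¬ (A i < 0) := not_lt.mpr hi.le
      cases hg : g i <;> cases hg' : g' i <;> simp_all
  have hanti : IsAntichain (· ⊆ ·) (SetLike.coe (F.image U)) := by
    intro a ha b hb hab hsub
    simp only [mem_coe, mem_image] at ha hb
    obtain ⟨g, hg, rfl⟩ := ha
    obtain ⟨g', hg', rfl⟩ := hb
    have h1 := (mem_filter.mp hg).2
    have h2 := (mem_filter.mp hg').2
    rw [hsum] at h1 h2
    have heq : ∑ i ∈ U g, |A i| = ∑ i ∈ U g', |A i| := by linarith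
    have hss : U g ⊂ U g' := by
      refine ⟨hsub, fun hback => hab (Subset.antisymm hsub hback)⟩
    have hlt : ∑ i ∈ U g, |A i| < ∑ i ∈ U g', |A i| := by
      obtain ⟨i, hi, hi'⟩ := Finset.exists_of_ssubset hss
      refine Finset.sum_lt_sum_of_subset hsub hi hi' (abs_pos.mpr (hA i)) ?_
      intro j _ _
      exact abs_nonneg _
    exact absurd heq (ne_of_lt hlt)
  calc F.card = (F.image U).card := (card_image_of_injOn hinj).symm
    _ ≤ _ := hanti.sperner

/-! ### Masks and flips on one row -/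

/-- Flip the pairs `{ℓ, c}` (for those `c ∈ C` selected by `g`). -/
def mask [DecidableEq (Fin n)] (ℓ : Fin n) (C : Finset (Fin n)) (g : ↥C → Bool) : Sgn n :=
  fun k => decide (∃ c : ↥C, k = s(ℓ, (c : Fin n)) ∧ g c = true)

lemma mask_off {ℓ : Fin n} {C : Finset (Fin n)} (g : ↥C → Bool) (k : Sym2 (Fin n))
    (h : ∀ c ∈ C, k ≠ s(ℓ, c)) : mask ℓ C g k = false := by
  simp only [mask, decide_eq_false_iff_not, not_exists, not_and]
  intro c hc
  exact absurd hc (h c c.2)

lemma mask_on {ℓ : Fin n} {C : Finset (Fin n)} (g : ↥C → Bool) (c : ↥C) :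
    mask ℓ C g s(ℓ, (c : Fin n)) = g c := by
  have : (∃ c' : ↥C, s(ℓ, (c : Fin n)) = s(ℓ, (c' : Fin n)) ∧ g c' = true) ↔ g c = true := by
    constructor
    · rintro ⟨c', hc', hg⟩
      have : (c : Fin n) = c' := Sym2.congr_right.mp hc'
      have : c = c' := Subtype.ext this
      rw [this]; exact hg
    · intro h
      exact ⟨c, rfl, h⟩
  apply Bool.eq_iff_iff.mpr
  simp only [mask, decide_eq_true_eq]
  exact this

/-- The flip of `σ` by a mask. -/
def flipBy (σ μ : Sgn n) : Sgn n := fun k => xor (σ k) (μ k)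

lemma entry_flip_off {σ μ : Sgn n} {i j : Fin n} (h : μ s(i, j) = false) :
    entry (flipBy σ μ) i j = entry σ i j := by
  simp [entry, flipBy, h]

lemma entry_flip_on {σ μ : Sgn n} {i j : Fin n} :
    entry (flipBy σ μ) i j = if μ s(i, j) then - entry σ i j else entry σ i j := by
  cases h : μ s(i, j) <;> cases h' : σ s(i, j) <;> simp [entry, flipBy, h, h']

/-- The row of `flipBy σ (mask ℓ C g)` is a signed sum over `C` plus a constant. -/
lemma rowSum_flip (σ : Sgn n) (ℓ : Fin n) (C : Finset (Fin n)) (g : ↥C → Bool) (v : Fin n → ℝ) :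
    rowSum (flipBy σ (mask ℓ C g)) ℓ v =
      (∑ j ∈ Cᶜ, entry σ ℓ j * v j) +
        ∑ c : ↥C, (if g c then -(entry σ ℓ c * v c) else entry σ ℓ c * v c) := by
  unfold rowSum
  rw [← Finset.sum_add_sum_compl C, add_comm]
  congr 1
  · refine sum_congr rfl fun j hj => ?_
    rw [entry_flip_off]
    apply mask_off
    intro c hc h
    have : j = c := Sym2.congr_right.mp h
    rw [this] at hj
    exact (mem_compl.mp hj) hc
  · rw [← Finset.sum_coe_sort C]
    refine sum_congr rfl fun c _ => ?_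
    rw [entry_flip_on, mask_on]
    cases g c <;> simp

/-! ### Canonical vector and the flip step -/

/-- The predicate: `v ∈ W` has support exactly `S` and is orthogonal to the rows in `R`. -/
def Pred (W : Submodule ℝ (Fin n → ℝ)) (S R : Finset (Fin n)) (σ : Sgn n) (v : Fin n → ℝ) : Prop :=
  v ∈ W ∧ supp v = S ∧ ∀ r ∈ R, rowSum σ r v = 0

/-- A canonical choice of a vector satisfying `Pred`; it only looks at the keys `R × S`. -/
noncomputable def canon (W : Submodule ℝ (Fin n → ℝ)) (S R : Finset (Fin n)) (σ : Sgn n) :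
    Fin n → ℝ :=
  Classical.epsilon (Pred W S R σ)

lemma rowSum_congr {σ σ' : Sgn n} {i : Fin n} {v : Fin n → ℝ}
    (h : ∀ j ∈ supp v, σ s(i, j) = σ' s(i, j)) : rowSum σ i v = rowSum σ' i v := by
  unfold rowSum
  refine sum_congr rfl fun j _ => ?_
  by_cases hj : j ∈ supp v
  · simp [entry, h j hj]
  · have : v j = 0 := by simpa [mem_supp] using hj
    simp [this]

lemma pred_congr {W : Submodule ℝ (Fin n → ℝ)} {S R : Finset (Fin n)} {σ σ' : Sgn n}
    (h : ∀ r ∈ R, ∀ j ∈ S, σ s(r, j) = σ' s(r, j)) : Pred W S R σ = Pred W S R σ' := by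
  funext v
  apply propext
  unfold Pred
  constructor
  · rintro ⟨h1, h2, h3⟩
    refine ⟨h1, h2, fun r hr => ?_⟩
    rw [← rowSum_congr (σ := σ) (fun j hj => h r hr j (h2 ▸ hj))]
    exact h3 r hr
  · rintro ⟨h1, h2, h3⟩
    refine ⟨h1, h2, fun r hr => ?_⟩
    rw [rowSum_congr (σ' := σ') (fun j hj => h r hr j (h2 ▸ hj))]
    exact h3 r hr

lemma canon_congr {W : Submodule ℝ (Fin n → ℝ)} {S R : Finset (Fin n)} {σ σ' : Sgn n}
    (h : ∀ r ∈ R, ∀ j ∈ S, σ s(r, j) = σ' s(r, j)) : canon W S R σ = canon W S R σ' := by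
  unfold canon
  rw [pred_congr h]

open Classical in
/-- The event: the canonical vector exists and is orthogonal to the rows in `T`. -/
noncomputable def Ev (W : Submodule ℝ (Fin n → ℝ)) (S R T : Finset (Fin n)) : Finset (Sgn n) :=
  univ.filter fun σ => Pred W S R σ (canon W S R σ) ∧ ∀ ℓ ∈ T, rowSum σ ℓ (canon W S R σ) = 0

lemma mem_Ev {W : Submodule ℝ (Fin n → ℝ)} {S R T : Finset (Fin n)} {σ : Sgn n} :
    σ ∈ Ev W S R T ↔ Pred W S R σ (canon W S R σ) ∧ ∀ ℓ ∈ T, rowSum σ ℓ (canon W S R σ) = 0 := by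
  simp [Ev]

lemma Ev_anti {W : Submodule ℝ (Fin n → ℝ)} {S R T T' : Finset (Fin n)} (h : T' ⊆ T) :
    Ev W S R T ⊆ Ev W S R T' := by
  intro σ hσ
  rw [mem_Ev] at hσ ⊢
  exact ⟨hσ.1, fun ℓ hℓ => hσ.2 ℓ (h hℓ)⟩

/-- The flip step: adding a row `ℓ` to the tested rows costs the Littlewood-Offord factor. -/
lemma flip_step (W : Submodule ℝ (Fin n → ℝ)) (S R C T : Finset (Fin n)) (ℓ : Fin n)
    (hCS : C ⊆ S) (hRC : Disjoint R C) (hTC : Disjoint T C)
    (hℓT : ℓ ∉ T) (hℓR : ℓ ∉ R) :
    2 ^ C.card * (Ev W S R (insert ℓ T)).card ≤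
      C.card.choose (C.card / 2) * (Ev W S R T).card := by
  classical
  have hcard : Fintype.card (↥C → Bool) = 2 ^ C.card := by
    simp
  rw [← hcard]
  -- keys of the rows in `R` are never touched
  have hR : ∀ (g : ↥C → Bool) (σ : Sgn n), ∀ r ∈ R, ∀ j ∈ S,
      (flipBy σ (mask ℓ C g)) s(r, j) = σ s(r, j) := by
    intro g σ r hr j _
    have : mask ℓ C g s(r, j) = false := by
      apply mask_off
      intro c hc h
      rcases Sym2.eq_iff.mp h with ⟨h1, _⟩ | ⟨h1, _⟩
      · exact hℓR (h1 ▸ hr)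
      · exact (disjoint_left.mp hRC hr) (h1 ▸ hc)
    simp [flipBy, this]
  have hcanon : ∀ (g : ↥C → Bool) (σ : Sgn n),
      canon W S R (flipBy σ (mask ℓ C g)) = canon W S R σ :=
    fun g σ => canon_congr (hR g σ)
  have hpred : ∀ (g : ↥C → Bool) (σ : Sgn n),
      Pred W S R (flipBy σ (mask ℓ C g)) = Pred W S R σ :=
    fun g σ => pred_congr (hR g σ)
  -- rows in `T` are untouched
  have hT : ∀ (g : ↥C → Bool) (σ : Sgn n) (v : Fin n → ℝ), ∀ ℓ' ∈ T,
      rowSum (flipBy σ (mask ℓ C g)) ℓ' v = rowSum σ ℓ' v := by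
    intro g σ v ℓ' hℓ'
    apply rowSum_congr
    intro j _
    have : mask ℓ C g s(ℓ', j) = false := by
      apply mask_off
      intro c hc h
      rcases Sym2.eq_iff.mp h with ⟨h1, _⟩ | ⟨h1, _⟩
      · exact hℓT (h1 ▸ hℓ')
      · exact (disjoint_left.mp hTC hℓ') (h1 ▸ hc)
    simp [flipBy, this]
  refine flip_double_count (fun g => mask ℓ C g) (Ev W S R T) (Ev W S R (insert ℓ T)) _ ?_ ?_
  · intro σ hσ g
    rw [mem_Ev] at hσ ⊢
    change Pred W S R (flipBy σ (mask ℓ C g)) (canon W S R (flipBy σ (mask ℓ C g))) ∧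
      ∀ ℓ' ∈ T, rowSum (flipBy σ (mask ℓ C g)) ℓ' (canon W S R (flipBy σ (mask ℓ C g))) = 0
    rw [hpred, hcanon]
    refine ⟨hσ.1, fun ℓ' hℓ' => ?_⟩
    rw [hT g σ _ ℓ' hℓ']
    exact hσ.2 ℓ' (mem_insert_of_mem hℓ')
  · intro τ hτ
    rw [mem_Ev] at hτ
    set v := canon W S R τ with hv
    have hsupp : supp v = S := hτ.1.2.1
    have hne : ∀ c : ↥C, entry τ ℓ c * v c ≠ 0 := by
      intro c
      apply mul_ne_zero (entry_ne_zero _ _ _)
      have : (c : Fin n) ∈ supp v := hsupp ▸ hCS c.2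
      exact mem_supp.mp this
    have hLO := littlewood_offord (fun c : ↥C => entry τ ℓ c * v c) hne
      (∑ j ∈ Cᶜ, entry τ ℓ j * v j)
    rw [Fintype.card_coe] at hLO
    refine le_trans (card_le_card ?_) hLO
    intro g hg
    simp only [mem_filter, mem_univ, true_and] at hg ⊢
    change flipBy τ (mask ℓ C g) ∈ _ at hg
    rw [mem_Ev] at hg
    have h1 := hg.2 ℓ (mem_insert_self _ _)
    rw [hcanon, ← hv, rowSum_flip] at h1
    exact h1

/-- Iterating the flip step. -/
lemma core_bound (W : Submodule ℝ (Fin n → ℝ)) (S R C : Finset (Fin n))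
    (hCS : C ⊆ S) (hRC : Disjoint R C) (T : Finset (Fin n))
    (hTR : Disjoint T R) (hTC : Disjoint T C) :
    (2 ^ C.card) ^ T.card * (Ev W S R T).card ≤
      (C.card.choose (C.card / 2)) ^ T.card * 2 ^ Fintype.card (Sym2 (Fin n)) := by
  classical
  induction T using Finset.induction_on with
  | empty =>
    simp only [card_empty, pow_zero, one_mul]
    calc (Ev W S R ∅).card ≤ (univ : Finset (Sgn n)).card := card_le_univ _
      _ = _ := by simp
  | insert ℓ T hℓ ih =>
    have hTR' : Disjoint T R := disjoint_of_subset_left (subset_insert _ _) hTR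
    have hTC' : Disjoint T C := disjoint_of_subset_left (subset_insert _ _) hTC
    have hℓR : ℓ ∉ R := disjoint_left.mp hTR (mem_insert_self _ _)
    have h1 := flip_step W S R C T ℓ hCS hRC hTC' hℓ hℓR
    have h2 := ih hTR' hTC'
    rw [card_insert_of_notMem hℓ]
    calc (2 ^ C.card) ^ (T.card + 1) * (Ev W S R (insert ℓ T)).card
        = (2 ^ C.card) ^ T.card * (2 ^ C.card * (Ev W S R (insert ℓ T)).card) := by ring
      _ ≤ (2 ^ C.card) ^ T.card * (C.card.choose (C.card / 2) * (Ev W S R T).card) :=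
          Nat.mul_le_mul_left _ h1
      _ = C.card.choose (C.card / 2) * ((2 ^ C.card) ^ T.card * (Ev W S R T).card) := by ring
      _ ≤ C.card.choose (C.card / 2) * ((C.card.choose (C.card / 2)) ^ T.card *
            2 ^ Fintype.card (Sym2 (Fin n))) := Nat.mul_le_mul_left _ h2
      _ = _ := by ring

/-- The bound for the rows `Cᶜ \ R`, with any `τ` at most their number. -/
lemma Ev_card_le (W : Submodule ℝ (Fin n → ℝ)) (S R C : Finset (Fin n))
    (hCS : C ⊆ S) (hRC : Disjoint R C) (τ : ℕ) (hτ : τ + C.card + R.card ≤ n) :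
    (2 ^ C.card) ^ τ * (Ev W S R (Cᶜ \ R)).card ≤
      (C.card.choose (C.card / 2)) ^ τ * 2 ^ Fintype.card (Sym2 (Fin n)) := by
  classical
  have hT : τ ≤ (Cᶜ \ R).card := by
    have h1 : (Cᶜ \ R).card = Cᶜ.card - R.card := by
      rw [card_sdiff_of_subset]
      intro r hr
      exact mem_compl.mpr (disjoint_left.mp hRC hr)
    have h2 : Cᶜ.card = n - C.card := by
      rw [card_compl, Fintype.card_fin]
    omega
  obtain ⟨T, hTsub, hTcard⟩ := Finset.exists_subset_card_eq hT
  have hTR : Disjoint T R := by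
    refine disjoint_of_subset_left hTsub ?_
    exact sdiff_disjoint
  have hTC : Disjoint T C := by
    rw [disjoint_left]
    intro a ha
    have := (mem_sdiff.mp (hTsub ha)).1
    exact mem_compl.mp this
  have := core_bound W S R C hCS hRC T hTR hTC
  rw [hTcard] at this
  refine le_trans (Nat.mul_le_mul_left _ (card_le_card (Ev_anti hTsub))) this

end Vale.Agent.P160K
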