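import Vale.Agent.P160K.Core

/-!
Selecting rows, coordinate subspaces, counting lemmas.
-/

namespace Vale.Agent.P160K

open Finset Module

variable {n : ℕ}

lemma rowSum_add (σ : Sgn n) (i : Fin n) (v w : Fin n → ℝ) :
    rowSum σ i (v + w) = rowSum σ i v + rowSum σ i w := by
  simp [rowSum, mul_add, sum_add_distrib]

lemma rowSum_smul (σ : Sgn n) (i : Fin n) (c : ℝ) (v : Fin n → ℝ) :
    rowSum σ i (c • v) = c * rowSum σ i v := by
  simp only [rowSum, Pi.smul_apply, smul_eq_mul, mul_sum]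
  refine sum_congr rfl fun j _ => by ring

/-- Rows as linear functionals on a subspace. -/
noncomputable def rowFun (σ : Sgn n) (W : Submodule ℝ (Fin n → ℝ)) (ℓ : Fin n) :
    Module.Dual ℝ W where
  toFun w := rowSum σ ℓ w
  map_add' v w := by simp [rowSum_add]
  map_smul' c v := by simp [rowSum_smul]

lemma exists_R (σ : Sgn n) (W : Submodule ℝ (Fin n → ℝ)) (Y : Finset (Fin n)) :
    ∃ R ⊆ Y, R.card ≤ finrank ℝ W ∧
      ∀ w ∈ W, (∀ r ∈ R, rowSum σ r w = 0) → ∀ ℓ ∈ Y, rowSum σ ℓ w = 0 := by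
  classical
  obtain ⟨f, hf, hspan, -⟩ := Submodule.exists_fun_fin_finrank_span_eq ℝ
    (rowFun σ W '' (Y : Set (Fin n)))
  choose r hrY hr using hf
  refine ⟨univ.image r, ?_, ?_, ?_⟩
  · intro x hx
    obtain ⟨i, -, rfl⟩ := mem_image.mp hx
    exact hrY i
  · calc (univ.image r).card ≤ (univ : Finset (Fin _)).card := card_image_le
      _ = finrank ℝ (Submodule.span ℝ (rowFun σ W '' (Y : Set (Fin n)))) := by simp
      _ ≤ finrank ℝ (Module.Dual ℝ W) := Submodule.finrank_le _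
      _ = finrank ℝ W := Subspace.dual_finrank_eq
  · intro w hw hR ℓ hℓ
    have h1 : rowFun σ W ℓ ∈ Submodule.span ℝ (rowFun σ W '' (Y : Set (Fin n))) :=
      Submodule.subset_span ⟨ℓ, hℓ, rfl⟩
    rw [← hspan] at h1
    have h2 : Submodule.span ℝ (Set.range f) ≤
        LinearMap.ker (Module.Dual.eval ℝ W ⟨w, hw⟩) := by
      rw [Submodule.span_le]
      rintro _ ⟨i, rfl⟩
      simp only [SetLike.mem_coe, LinearMap.mem_ker, Module.Dual.eval_apply]
      rw [← hr i]
      exact hR (r i) (mem_image_of_mem r (mem_univ i))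
    have h3 := h2 h1
    simp only [LinearMap.mem_ker, Module.Dual.eval_apply] at h3
    exact h3

/-- Every kernel vector in `W` makes `σ` lie in some event. -/
lemma cover (σ : Sgn n) (W : Submodule ℝ (Fin n → ℝ)) (v : Fin n → ℝ) (hvW : v ∈ W)
    (hker : ∀ i, rowSum σ i v = 0) (C : Finset (Fin n)) :
    ∃ R, Disjoint R C ∧ R.card ≤ finrank ℝ W ∧ σ ∈ Ev W (supp v) R (Cᶜ \ R) := by
  classical
  obtain ⟨R, hRY, hRcard, hR⟩ := exists_R σ W Cᶜ
  refine ⟨R, ?_, hRcard, ?_⟩
  · rw [disjoint_left]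
    intro a ha
    exact mem_compl.mp (hRY ha)
  · rw [mem_Ev]
    have hex : Pred W (supp v) R σ v := ⟨hvW, rfl, fun r _ => hker r⟩
    have hspec : Pred W (supp v) R σ (canon W (supp v) R σ) := Classical.epsilon_spec ⟨v, hex⟩
    exact ⟨hspec, fun ℓ hℓ => hR _ hspec.1 hspec.2.2 ℓ (mem_sdiff.mp hℓ).1⟩

/-- The coordinate subspace of a set of coordinates. -/
noncomputable def coord (S : Finset (Fin n)) : Submodule ℝ (Fin n → ℝ) :=
  Submodule.span ℝ ((S.image fun i => (Pi.single i (1 : ℝ) : Fin n → ℝ) : Finset _) : Set _)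

lemma finrank_coord_le (S : Finset (Fin n)) : finrank ℝ (coord S) ≤ S.card := by
  classical
  exact (finrank_span_finset_le_card _).trans card_image_le

lemma mem_coord_supp (v : Fin n → ℝ) : v ∈ coord (supp v) := by
  classical
  have hv : ∑ i ∈ supp v, v i • (Pi.single i (1 : ℝ) : Fin n → ℝ) = v := by
    funext j
    simp only [Finset.sum_apply, Pi.smul_apply, Pi.single_apply, smul_eq_mul, mul_ite, mul_one,
      mul_zero]
    rw [Finset.sum_ite_eq]
    by_cases hj : j ∈ supp v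
    · rw [if_pos hj]
    · rw [if_neg hj]
      by_contra h
      exact hj (mem_supp.mpr (fun h' => h h'.symm))
  have hmem : ∑ i ∈ supp v, v i • (Pi.single i (1 : ℝ) : Fin n → ℝ) ∈ coord (supp v) := by
    refine Submodule.sum_mem _ fun i hi => Submodule.smul_mem _ _ (Submodule.subset_span ?_)
    simp only [coe_image, Set.mem_image, mem_coe]
    exact ⟨i, hi, rfl⟩
  rwa [hv] at hmem

/-- A subset of prescribed size. -/
noncomputable def pick (S : Finset (Fin n)) (d : ℕ) : Finset (Fin n) :=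
  if h : d ≤ S.card then (Finset.exists_subset_card_eq h).choose else ∅

lemma pick_subset (S : Finset (Fin n)) (d : ℕ) : pick S d ⊆ S := by
  unfold pick
  split_ifs with h
  · exact (Finset.exists_subset_card_eq h).choose_spec.1
  · exact empty_subset _

lemma pick_card {S : Finset (Fin n)} {d : ℕ} (h : d ≤ S.card) : (pick S d).card = d := by
  unfold pick
  rw [dif_pos h]
  exact (Finset.exists_subset_card_eq h).choose_spec.2

/-! ### Binomial estimates -/

lemma central_bound (q : ℕ) :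
    ((2 * q).choose q) ^ 2 * (2 * q + 1) ≤ (2 ^ (2 * q)) ^ 2 := by
  induction q with
  | zero => simp
  | succ q ih =>
    have h := Nat.succ_mul_centralBinom_succ q
    simp only [Nat.centralBinom_eq_two_mul_choose] at h
    set a := (2 * q).choose q with ha
    set b := (2 * (q + 1)).choose (q + 1) with hb
    have hq : 0 < (q + 1) ^ 2 := by positivity
    apply Nat.le_of_mul_le_mul_left _ hq
    have e1 : (q + 1) ^ 2 * (b ^ 2 * (2 * (q + 1) + 1)) =
        ((q + 1) * b) ^ 2 * (2 * q + 3) := by ring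
    have e2 : (2 ^ (2 * (q + 1))) ^ 2 = 16 * (2 ^ (2 * q)) ^ 2 := by ring
    rw [e1, h, e2]
    calc (2 * (2 * q + 1) * a) ^ 2 * (2 * q + 3)
        = 4 * (2 * q + 1) * (2 * q + 3) * (a ^ 2 * (2 * q + 1)) := by ring
      _ ≤ 4 * (2 * q + 1) * (2 * q + 3) * (2 ^ (2 * q)) ^ 2 := Nat.mul_le_mul_left _ ih
      _ ≤ 4 * (4 * (q + 1) ^ 2) * (2 ^ (2 * q)) ^ 2 := by
          apply Nat.mul_le_mul_right
          nlinarith
      _ = (q + 1) ^ 2 * (16 * (2 ^ (2 * q)) ^ 2) := by ring

lemma central_bound' (q : ℕ) :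
    ((2 * q).choose (2 * q / 2)) ^ 2 * (2 * q + 1) ≤ (2 ^ (2 * q)) ^ 2 := by
  have : 2 * q / 2 = q := by omega
  rw [this]
  exact central_bound q

lemma power_trick {X a b D τ M : ℕ} (hM : 0 < M) (hab : a ^ 2 * D ≤ b ^ 2)
    (hX : X ^ (4 * M) ≤ D ^ (2 * M * τ)) : X * a ^ τ ≤ b ^ τ := by
  have h : (X * a ^ τ) ^ (4 * M) ≤ (b ^ τ) ^ (4 * M) := by
    calc (X * a ^ τ) ^ (4 * M) = X ^ (4 * M) * (a ^ 2) ^ (2 * M * τ) := by
          rw [mul_pow, ← pow_mul, ← pow_mul]
          congr 2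
          ring
      _ ≤ D ^ (2 * M * τ) * (a ^ 2) ^ (2 * M * τ) := Nat.mul_le_mul_right _ hX
      _ = (a ^ 2 * D) ^ (2 * M * τ) := by rw [mul_pow, mul_comm]
      _ ≤ (b ^ 2) ^ (2 * M * τ) := Nat.pow_le_pow_left hab _
      _ = (b ^ τ) ^ (4 * M) := by
          rw [← pow_mul, ← pow_mul]
          congr 1
          ring
  exact (Nat.pow_le_pow_iff_left (by omega)).mp h

/-- Finsets of size at most `K`. -/
def ball (n K : ℕ) : Finset (Finset (Fin n)) := univ.filter fun S => S.card ≤ K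

lemma mem_ball {K : ℕ} {S : Finset (Fin n)} : S ∈ ball n K ↔ S.card ≤ K := by
  simp [ball]

lemma ball_card_mul_le (K : ℕ) (hK : K ≤ n) : (ball n K).card * 50 ^ (n - K) ≤ 51 ^ n := by
  classical
  have h := Finset.sum_pow_mul_eq_add_pow (1 : ℕ) 50 (univ : Finset (Fin n))
  simp only [one_pow, one_mul, card_univ, Fintype.card_fin] at h
  have h51 : (1 + 50 : ℕ) = 51 := by norm_num
  rw [h51] at h
  rw [← h, ← smul_eq_mul, ← sum_const]
  calc ∑ _t ∈ ball n K, 50 ^ (n - K)
      ≤ ∑ t ∈ ball n K, 50 ^ (n - t.card) := by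
        refine sum_le_sum fun t ht => ?_
        apply Nat.pow_le_pow_right (by norm_num)
        have := mem_ball.mp ht
        omega
    _ ≤ ∑ t ∈ (univ : Finset (Fin n)).powerset, 50 ^ (n - t.card) := by
        apply sum_le_sum_of_subset
        intro t _
        simp

lemma ball_two_card_le : (ball n 2).card ≤ (n + 1) ^ 2 := by
  classical
  have hsub : ball n 2 ⊆ powersetCard 0 univ ∪ (powersetCard 1 univ ∪ powersetCard 2 univ) := by
    intro S hS
    have h := mem_ball.mp hS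
    simp only [mem_union, mem_powersetCard, subset_univ, true_and]
    omega
  have h0 : (powersetCard 0 (univ : Finset (Fin n))).card = 1 := by simp
  have h1 : (powersetCard 1 (univ : Finset (Fin n))).card = n := by simp
  have h2 : (powersetCard 2 (univ : Finset (Fin n))).card ≤ n * n := by
    rw [card_powersetCard, card_univ, Fintype.card_fin, Nat.choose_two_right]
    calc n * (n - 1) / 2 ≤ n * (n - 1) := Nat.div_le_self _ _
      _ ≤ n * n := Nat.mul_le_mul_left _ (Nat.sub_le _ _)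
  calc (ball n 2).card ≤ _ := card_le_card hsub
    _ ≤ _ := card_union_le _ _
    _ ≤ 1 + (n + n * n) := by
        have := card_union_le (powersetCard 1 (univ : Finset (Fin n))) (powersetCard 2 univ)
        omega
    _ ≤ (n + 1) ^ 2 := by nlinarith

/-! ### A generic regime bound -/

lemma regime_pick {ι : Type*} (I : Finset ι) (w : ι → Submodule ℝ (Fin n → ℝ))
    (s r : ι → Finset (Fin n)) (d τ ρ c I' : ℕ)
    (hd : ∀ i ∈ I, d ≤ (s i).card) (hdisj : ∀ i ∈ I, Disjoint (r i) (pick (s i) d))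
    (hr : ∀ i ∈ I, (r i).card ≤ ρ) (hτ : τ + d + ρ ≤ n) (hI : I.card ≤ I')
    (hX : I' * 2 ^ n * (d.choose (d / 2)) ^ τ ≤ c * (2 ^ d) ^ τ) :
    2 ^ n * (I.biUnion fun i => Ev (w i) (s i) (r i) ((pick (s i) d)ᶜ \ r i)).card ≤
      c * 2 ^ Fintype.card (Sym2 (Fin n)) := by
  classical
  set Ω := 2 ^ Fintype.card (Sym2 (Fin n)) with hΩ
  set a := d.choose (d / 2) with ha
  set b := (2 ^ d) ^ τ with hb
  have hbpos : 0 < b := by positivity
  have helem : ∀ i ∈ I, b * (Ev (w i) (s i) (r i) ((pick (s i) d)ᶜ \ r i)).card ≤ a ^ τ * Ω := by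
    intro i hi
    have hc : (pick (s i) d).card = d := pick_card (hd i hi)
    have := Ev_card_le (w i) (s i) (r i) (pick (s i) d) (pick_subset _ _) (hdisj i hi) τ
      (by rw [hc]; have := hr i hi; omega)
    rw [hc] at this
    exact this
  have hU : b * (I.biUnion fun i => Ev (w i) (s i) (r i) ((pick (s i) d)ᶜ \ r i)).card ≤
      I.card * (a ^ τ * Ω) := by
    calc _ ≤ b * ∑ i ∈ I, (Ev (w i) (s i) (r i) ((pick (s i) d)ᶜ \ r i)).card :=
          Nat.mul_le_mul_left _ card_biUnion_le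
      _ = ∑ i ∈ I, b * (Ev (w i) (s i) (r i) ((pick (s i) d)ᶜ \ r i)).card := mul_sum _ _ _
      _ ≤ ∑ _i ∈ I, a ^ τ * Ω := sum_le_sum helem
      _ = I.card * (a ^ τ * Ω) := by simp
  apply Nat.le_of_mul_le_mul_left _ hbpos
  calc b * (2 ^ n * (I.biUnion fun i => Ev (w i) (s i) (r i) ((pick (s i) d)ᶜ \ r i)).card)
      = 2 ^ n * (b * (I.biUnion fun i => Ev (w i) (s i) (r i) ((pick (s i) d)ᶜ \ r i)).card) := by
        ring
    _ ≤ 2 ^ n * (I.card * (a ^ τ * Ω)) := Nat.mul_le_mul_left _ hU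
    _ ≤ 2 ^ n * (I' * (a ^ τ * Ω)) :=
        Nat.mul_le_mul_left _ (Nat.mul_le_mul_right _ hI)
    _ = (I' * 2 ^ n * a ^ τ) * Ω := by ring
    _ ≤ (c * b) * Ω := Nat.mul_le_mul_right _ hX
    _ = b * (c * Ω) := by ring

end Vale.Agent.P160K
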