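import Vale.Agent.P160K.Final

/-!
The family of `D`-valued vectors: kernel vectors with few distinct coordinates.
-/

namespace Vale.Agent.P160K

open Finset Module

variable {n : ℕ}

open Classical in
/-- Configurations whose matrix has a nonzero kernel vector with at least `n / M` zero
coordinates, or taking at most `D` distinct values. -/
noncomputable def BadValues (M n D : ℕ) : Finset (Sgn n) :=
  univ.filter fun σ => ∃ v : Fin n → ℝ, v ≠ 0 ∧ (∀ i, rowSum σ i v = 0) ∧
    (M * (supp v).card ≤ (M - 1) * n ∨ (univ.image v).card ≤ D)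

/-- Vectors constant on the classes of a colouring. -/
noncomputable def colourSpace {D : ℕ} (c : Fin n → Fin D) : Submodule ℝ (Fin n → ℝ) :=
  LinearMap.range (LinearMap.funLeft ℝ ℝ c)

lemma finrank_colourSpace_le {D : ℕ} (c : Fin n → Fin D) : finrank ℝ (colourSpace c) ≤ D := by
  calc finrank ℝ (colourSpace c) ≤ finrank ℝ (Fin D → ℝ) := LinearMap.finrank_range_le _
    _ = D := Module.finrank_fin_fun ℝ

lemma mem_colourSpace_of_values {D : ℕ} (v : Fin n → ℝ) (h : (univ.image v).card ≤ D) :
    ∃ c : Fin n → Fin D, v ∈ colourSpace c := by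
  classical
  let e := (univ.image v).equivFin
  let emb : ↥(univ.image v) → Fin D := fun y => Fin.castLE h (e y)
  have hemb : Function.Injective emb := by
    intro y y' hy
    apply e.injective
    exact Fin.castLE_injective h hy
  let c : Fin n → Fin D := fun i => emb ⟨v i, mem_image_of_mem v (mem_univ i)⟩
  refine ⟨c, ?_⟩
  let w : Fin D → ℝ := fun x => if hx : ∃ i, c i = x then v hx.choose else 0
  refine ⟨w, ?_⟩
  funext i
  simp only [LinearMap.funLeft_apply]
  have hx : ∃ j, c j = c i := ⟨i, rfl⟩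
  simp only [w, dif_pos hx]
  have h1 := hemb hx.choose_spec
  exact congrArg Subtype.val h1

/-- The family of all colour spaces. -/
noncomputable def colourFamily (n D : ℕ) : Finset (Submodule ℝ (Fin n → ℝ)) := by
  classical exact (univ : Finset (Fin n → Fin D)).image colourSpace

lemma colourFamily_card_le (n D : ℕ) : (colourFamily n D).card ≤ D ^ n := by
  classical
  calc (colourFamily n D).card ≤ (univ : Finset (Fin n → Fin D)).card := by
        unfold colourFamily
        convert card_image_le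
    _ = D ^ n := by simp

lemma dim_small {M D : ℕ} (hM : 3 ≤ M) (hn : M ^ 2 < n) (hD : D ^ (2 * M) ≤ n ^ (M - 2)) :
    M * D ≤ n := by
  by_contra h
  push Not at h
  have h1 : n ^ (2 * M) ≤ (M * D) ^ (2 * M) := Nat.pow_le_pow_left h.le _
  have h2 : (M * D) ^ (2 * M) = M ^ (2 * M) * D ^ (2 * M) := mul_pow _ _ _
  have h3 : (M * D) ^ (2 * M) ≤ M ^ (2 * M) * n ^ (M - 2) := by
    rw [h2]
    exact Nat.mul_le_mul_left _ hD
  have hnpos : 0 < n := by omega
  have h4 : n ^ (2 * M) = n ^ (M + 2) * n ^ (M - 2) := by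
    rw [← pow_add]
    congr 1
    omega
  have h5 : n ^ (M + 2) ≤ M ^ (2 * M) := by
    have h6 : n ^ (M + 2) * n ^ (M - 2) ≤ M ^ (2 * M) * n ^ (M - 2) := by
      rw [← h4]
      exact h1.trans h3
    exact Nat.le_of_mul_le_mul_right h6 (by positivity)
  have h7 : (M ^ 2) ^ (M + 2) < n ^ (M + 2) := Nat.pow_lt_pow_left hn (by omega)
  have h8 : M ^ (2 * M) ≤ (M ^ 2) ^ (M + 2) := by
    rw [← pow_mul]
    exact Nat.pow_le_pow_right (by omega) (by nlinarith)
  omega

/-- The two-sided bound for vectors with few values or many zeros. -/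
theorem few_values_bound (M : ℕ) (hM : 3 ≤ M) :
    ∃ n₀ : ℕ, ∀ n ≥ n₀, ∀ D : ℕ, D ^ (2 * M) ≤ n ^ (M - 2) →
      2 ^ Fintype.card (Sym2 (Fin n)) ≤ 2 ^ n * (BadValues M n D).card ∧
      2 ^ n * (BadValues M n D).card ≤ 16 * (n + 1) ^ 4 * 2 ^ Fintype.card (Sym2 (Fin n)) := by
  classical
  obtain ⟨n₁, hn₁⟩ := main_bound M hM
  refine ⟨n₁ + M ^ 2 + 1, ?_⟩
  intro n hn D hD
  have hdim : M * D ≤ n := dim_small hM (by omega) hD
  have hfam : (colourFamily n D).card ^ (2 * M) ≤ n ^ ((M - 2) * n) := by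
    calc (colourFamily n D).card ^ (2 * M) ≤ (D ^ n) ^ (2 * M) :=
          Nat.pow_le_pow_left (colourFamily_card_le n D) _
      _ = (D ^ (2 * M)) ^ n := by rw [← pow_mul, ← pow_mul, mul_comm]
      _ ≤ (n ^ (M - 2)) ^ n := Nat.pow_le_pow_left hD _
      _ = n ^ ((M - 2) * n) := by rw [← pow_mul]
  have hfamdim : ∀ W ∈ colourFamily n D, M * finrank ℝ W ≤ n := by
    intro W hW
    unfold colourFamily at hW
    obtain ⟨c, -, rfl⟩ := mem_image.mp hW
    exact (Nat.mul_le_mul_left _ (finrank_colourSpace_le c)).trans hdim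
  have hbounds := hn₁ n (by omega) (colourFamily n D) hfam hfamdim
  have hbounds0 := hn₁ n (by omega) ∅ (by rw [card_empty, zero_pow (by omega)]; exact Nat.zero_le _) (by simp)
  have hsub0 : BadSet M n ∅ ⊆ BadValues M n D := by
    intro σ hσ
    simp only [BadSet, mem_filter, mem_univ, true_and] at hσ
    simp only [BadValues, mem_filter, mem_univ, true_and]
    obtain ⟨v, h0, h1, h2⟩ := hσ
    refine ⟨v, h0, h1, Or.inl ?_⟩
    rcases h2 with h2 | ⟨W, hW, -⟩
    · exact h2
    · simp at hW
  have hsub1 : BadValues M n D ⊆ BadSet M n (colourFamily n D) := by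
    intro σ hσ
    simp only [BadValues, mem_filter, mem_univ, true_and] at hσ
    simp only [BadSet, mem_filter, mem_univ, true_and]
    obtain ⟨v, h0, h1, h2⟩ := hσ
    refine ⟨v, h0, h1, ?_⟩
    rcases h2 with h2 | h2
    · exact Or.inl h2
    · obtain ⟨c, hc⟩ := mem_colourSpace_of_values v h2
      refine Or.inr ⟨colourSpace c, ?_, hc⟩
      unfold colourFamily
      exact mem_image_of_mem _ (mem_univ c)
  constructor
  · exact hbounds0.1.trans (Nat.mul_le_mul_left _ (card_le_card hsub0))
  · exact (Nat.mul_le_mul_left _ (card_le_card hsub1)).trans hbounds.2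

end Vale.Agent.P160K
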