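import Vale.Agent.P160K.Main

/-!
Assembly: the covering of the bad set and the two-sided bound.
-/

namespace Vale.Agent.P160K

open Finset Module

variable {n : ℕ}

/-! ### Lower bound: two equal rows -/

section Lower

variable (a b : Fin n)

/-- The key flipped for the row `ℓ`. -/
def key0 (ℓ : Fin n) : Sym2 (Fin n) := if ℓ = a then s(a, a) else s(ℓ, b)

/-- The flips attached to a bit vector on rows. -/
def mask0 (g : Fin n → Bool) : Sgn n := fun k => decide (∃ ℓ, k = key0 a b ℓ ∧ g ℓ = true)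

lemma mask0_a (hab : a ≠ b) (g : Fin n → Bool) (ℓ : Fin n) :
    mask0 a b g s(ℓ, a) = if ℓ = a then g a else false := by
  have h : (∃ m, s(ℓ, a) = key0 a b m ∧ g m = true) ↔ (ℓ = a ∧ g a = true) := by
    constructor
    · rintro ⟨m, hm, hg⟩
      unfold key0 at hm
      by_cases hma : m = a
      · rw [if_pos hma] at hm
        have : ℓ = a := Sym2.congr_left.mp hm
        exact ⟨this, hma ▸ hg⟩
      · rw [if_neg hma] at hm
        exfalso
        rcases Sym2.eq_iff.mp hm with ⟨_, h2⟩ | ⟨_, h2⟩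
        · exact hab h2
        · exact hma h2.symm
    · rintro ⟨rfl, hg⟩
      exact ⟨ℓ, by simp [key0], hg⟩
  by_cases hℓ : ℓ = a
  · rw [if_pos hℓ]
    apply Bool.eq_iff_iff.mpr
    simp only [mask0, decide_eq_true_eq]
    rw [h]
    simp [hℓ]
  · rw [if_neg hℓ]
    simp only [mask0, decide_eq_false_iff_not]
    rw [h]
    exact fun h' => hℓ h'.1

lemma mask0_b (hab : a ≠ b) (g : Fin n → Bool) (ℓ : Fin n) :
    mask0 a b g s(ℓ, b) = if ℓ = a then false else g ℓ := by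
  have h : (∃ m, s(ℓ, b) = key0 a b m ∧ g m = true) ↔ (ℓ ≠ a ∧ g ℓ = true) := by
    constructor
    · rintro ⟨m, hm, hg⟩
      unfold key0 at hm
      by_cases hma : m = a
      · rw [if_pos hma] at hm
        exfalso
        rcases Sym2.eq_iff.mp hm with ⟨_, h2⟩ | ⟨_, h2⟩
        · exact hab h2.symm
        · exact hab h2.symm
      · rw [if_neg hma] at hm
        have : ℓ = m := Sym2.congr_left.mp hm
        subst this
        exact ⟨hma, hg⟩
    · rintro ⟨hℓ, hg⟩
      exact ⟨ℓ, by simp [key0, hℓ], hg⟩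
  by_cases hℓ : ℓ = a
  · rw [if_pos hℓ]
    simp only [mask0, decide_eq_false_iff_not]
    rw [h]
    exact fun h' => h'.1 hℓ
  · rw [if_neg hℓ]
    apply Bool.eq_iff_iff.mpr
    simp only [mask0, decide_eq_true_eq]
    rw [h]
    simp [hℓ]

/-- The syndrome of a configuration. -/
def syn (σ : Sgn n) (ℓ : Fin n) : Bool := xor (σ s(ℓ, a)) (σ s(ℓ, b))

lemma flip_rows_equal (hab : a ≠ b) (σ : Sgn n) (ℓ : Fin n) :
    flipBy σ (mask0 a b (syn a b σ)) s(ℓ, a) = flipBy σ (mask0 a b (syn a b σ)) s(ℓ, b) := by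
  simp only [flipBy, mask0_a a b hab, mask0_b a b hab]
  by_cases hℓ : ℓ = a
  · subst hℓ
    simp only [if_true, syn]
    cases σ s(ℓ, ℓ) <;> cases σ s(ℓ, b) <;> rfl
  · simp only [if_neg hℓ, syn]
    cases σ s(ℓ, a) <;> cases σ s(ℓ, b) <;> rfl

lemma mem_bad_of_rows_equal {M : ℕ} (hM : 3 ≤ M) (hn : 3 ≤ n) (hab : a ≠ b)
    (𝒲 : Finset (Submodule ℝ (Fin n → ℝ))) (τ : Sgn n)
    (h : ∀ ℓ, τ s(ℓ, a) = τ s(ℓ, b)) : τ ∈ BadSet M n 𝒲 := by
  classical
  simp only [BadSet, mem_filter, mem_univ, true_and]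
  refine ⟨Pi.single a 1 - Pi.single b 1, ?_, ?_, Or.inl ?_⟩
  · intro h0
    have := congrFun h0 a
    simp [Pi.single_apply, hab] at this
  · intro ℓ
    simp only [rowSum, Pi.sub_apply, mul_sub, sum_sub_distrib, Pi.single_apply, mul_ite, mul_one,
      mul_zero, sum_ite_eq', mem_univ, if_true, sum_ite_eq]
    simp [entry, h ℓ]
  · have hsub : supp (Pi.single a 1 - Pi.single b 1 : Fin n → ℝ) ⊆ {a, b} := by
      intro j hj
      rw [mem_supp] at hj
      simp only [mem_insert, mem_singleton]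
      by_contra hc
      push Not at hc
      apply hj
      simp [Pi.single_apply, hc.1, hc.2]
    have h2 : (supp (Pi.single a 1 - Pi.single b 1 : Fin n → ℝ)).card ≤ 2 :=
      (card_le_card hsub).trans card_le_two
    calc M * _ ≤ M * 2 := Nat.mul_le_mul_left _ h2
      _ ≤ (M - 1) * 3 := by omega
      _ ≤ (M - 1) * n := Nat.mul_le_mul_left _ hn

lemma lower_bound {M : ℕ} (hM : 3 ≤ M) (hn : 3 ≤ n) (𝒲 : Finset (Submodule ℝ (Fin n → ℝ))) :
    2 ^ Fintype.card (Sym2 (Fin n)) ≤ 2 ^ n * (BadSet M n 𝒲).card := by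
  classical
  let a : Fin n := ⟨0, by omega⟩
  let b : Fin n := ⟨1, by omega⟩
  have hab : a ≠ b := by
    intro h
    have := congrArg Fin.val h
    simp [a, b] at this
  have hcard : (univ : Finset (Sgn n)).card = 2 ^ Fintype.card (Sym2 (Fin n)) := by simp
  have hcard2 : (univ : Finset (Fin n → Bool)).card = 2 ^ n := by simp
  rw [← hcard, ← hcard2, mul_comm, ← card_product]
  apply Finset.card_le_card_of_injOn
    (fun σ => (flipBy σ (mask0 a b (syn a b σ)), syn a b σ))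
  · intro σ _
    simp only [coe_product, Set.mem_prod, mem_coe, mem_univ, and_true, coe_univ, Set.mem_univ]
    exact mem_bad_of_rows_equal a b hM hn hab 𝒲 _ (flip_rows_equal a b hab σ)
  · intro σ _ σ' _ h
    simp only [Prod.mk.injEq] at h
    obtain ⟨h1, h2⟩ := h
    rw [h2] at h1
    funext k
    have := congrFun h1 k
    simp only [flipBy] at this
    cases hσ : σ k <;> cases hσ' : σ' k <;> simp_all

end Lower

/-! ### Upper bound: the covering -/

lemma bad_subset {M K q : ℕ} (hM : 3 ≤ M) (hKq : 2 * q ≤ K)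
    (𝒲 : Finset (Submodule ℝ (Fin n → ℝ))) (h𝒲 : ∀ W ∈ 𝒲, M * finrank ℝ W ≤ n) :
    BadSet M n 𝒲 ⊆ by
      classical
      exact Ba n ∪ (Bb n K ∪ (Bc M n (2 * q) ∪ Bd M n (2 * (n / (8 * M))) 𝒲)) := by
  classical
  intro σ hσ
  simp only [BadSet, mem_filter, mem_univ, true_and] at hσ
  obtain ⟨v, hv0, hker, hclass⟩ := hσ
  have h0 := supp_card_ne_zero hv0
  have h1 := supp_card_ne_one hker
  set S := supp v with hS
  have hcoord : ∀ C : Finset (Fin n), ∃ R, Disjoint R C ∧ R.card ≤ S.card ∧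
      σ ∈ Ev (coord S) S R (Cᶜ \ R) := by
    intro C
    obtain ⟨R, h1, h2, h3⟩ := cover σ (coord S) v (mem_coord_supp v) hker C
    exact ⟨R, h1, h2.trans (finrank_coord_le S), h3⟩
  by_cases h2 : S.card = 2
  · obtain ⟨R, hR1, hR2, hR3⟩ := hcoord (pick S 1)
    refine mem_union_left _ ?_
    simp only [Ba, mem_biUnion]
    refine ⟨(S, R), ?_, hR3⟩
    simp only [Ia, mem_filter, mem_product, mem_ball]
    exact ⟨⟨by omega, by omega⟩, h2, hR1⟩
  refine mem_union_right _ ?_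
  by_cases h3 : S.card ≤ K
  · obtain ⟨R, hR1, hR2, hR3⟩ := hcoord (pick S 3)
    refine mem_union_left _ ?_
    simp only [Bb, mem_biUnion]
    refine ⟨(S, R), ?_, hR3⟩
    simp only [Ib, mem_filter, mem_product, mem_ball]
    exact ⟨⟨h3, by omega⟩, by omega, hR1⟩
  refine mem_union_right _ ?_
  by_cases h4 : M * S.card ≤ (M - 1) * n
  · obtain ⟨R, hR1, hR2, hR3⟩ := hcoord (pick S (2 * q))
    refine mem_union_left _ ?_
    simp only [Bc, mem_biUnion]
    refine ⟨(S, R), ?_, hR3⟩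
    simp only [Ic, mem_filter, mem_univ, true_and]
    exact ⟨by omega, (Nat.mul_le_mul_left _ hR2).trans h4, hR1⟩
  · refine mem_union_right _ ?_
    obtain ⟨W, hW, hvW⟩ := hclass.resolve_left h4
    obtain ⟨R, hR1, hR2, hR3⟩ := cover σ W v hvW hker (pick S (2 * (n / (8 * M))))
    simp only [Bd, mem_biUnion]
    refine ⟨(W, S, R), ?_, hR3⟩
    simp only [Id, mem_filter, mem_product, mem_univ, and_true, true_and]
    refine ⟨hW, ?_, (Nat.mul_le_mul_left _ hR2).trans (h𝒲 W hW), hR1⟩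
    -- the size of the flip set is at most the support
    have h8 : 8 * M * (n / (8 * M)) ≤ n := Nat.mul_div_le _ _
    have h5 : M * (2 * (n / (8 * M))) ≤ n := by
      have : 4 * (M * (2 * (n / (8 * M)))) = 8 * M * (n / (8 * M)) := by ring
      omega
    have h6 : 2 * n ≤ (M - 1) * n := Nat.mul_le_mul_right _ (by omega)
    have h7 : M * (2 * (n / (8 * M))) ≤ M * S.card := by omega
    exact Nat.le_of_mul_le_mul_left h7 (by omega)

/-- The main two-sided bound. -/
theorem main_bound (M : ℕ) (hM : 3 ≤ M) :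
    ∃ n₀ : ℕ, ∀ n ≥ n₀, ∀ 𝒲 : Finset (Submodule ℝ (Fin n → ℝ)),
      𝒲.card ^ (2 * M) ≤ n ^ ((M - 2) * n) →
      (∀ W ∈ 𝒲, M * Module.finrank ℝ W ≤ n) →
      2 ^ Fintype.card (Sym2 (Fin n)) ≤ 2 ^ n * (BadSet M n 𝒲).card ∧
      2 ^ n * (BadSet M n 𝒲).card ≤ 16 * (n + 1) ^ 4 * 2 ^ Fintype.card (Sym2 (Fin n)) := by
  classical
  set q := 8 ^ (4 * M) with hq
  refine ⟨100 * q + 2 * M * (2 * q) + 8 ^ (4 * M) * (8 * M) ^ (2 * M - 3) + 50, ?_⟩
  intro n hn 𝒲 h𝒲 hdim
  have hn1 : 100 * q ≤ n := by omega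
  have hn2 : 2 * M * (2 * q) ≤ n := by omega
  have hn3 : 8 ^ (4 * M) * (8 * M) ^ (2 * M - 3) ≤ n := by omega
  have hn4 : 50 ≤ n := by omega
  refine ⟨lower_bound hM (by omega) 𝒲, ?_⟩
  set K := n / 50 with hK
  have hK1 : 1 ≤ K := by omega
  have hK50 : 50 * K ≤ n := Nat.mul_div_le _ _
  have hKq : 2 * q ≤ K := by omega
  have hsub := bad_subset hM hKq 𝒲 hdim
  have ha := regime_a (n := n) (by omega)
  have hb := regime_b (n := n) hK1 hK50
  have hc := regime_c (n := n) (M := M) (q := q) (by omega) hq.ge hn2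
  have hd := regime_d (n := n) hM hn3 𝒲 h𝒲
  set Ω := 2 ^ Fintype.card (Sym2 (Fin n)) with hΩ
  have hcard : (BadSet M n 𝒲).card ≤ (Ba n).card + ((Bb n K).card +
      ((Bc M n (2 * q)).card + (Bd M n (2 * (n / (8 * M))) 𝒲).card)) := by
    refine (card_le_card hsub).trans ?_
    refine (card_union_le _ _).trans (Nat.add_le_add_left ?_ _)
    refine (card_union_le _ _).trans (Nat.add_le_add_left ?_ _)
    exact card_union_le _ _
  have hpos : 1 ≤ (n + 1) ^ 4 := Nat.one_le_pow _ _ (by omega)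
  calc 2 ^ n * (BadSet M n 𝒲).card
      ≤ 2 ^ n * ((Ba n).card + ((Bb n K).card +
          ((Bc M n (2 * q)).card + (Bd M n (2 * (n / (8 * M))) 𝒲).card))) :=
        Nat.mul_le_mul_left _ hcard
    _ = 2 ^ n * (Ba n).card + (2 ^ n * (Bb n K).card + (2 ^ n * (Bc M n (2 * q)).card +
          2 ^ n * (Bd M n (2 * (n / (8 * M))) 𝒲).card)) := by ring
    _ ≤ 8 * (n + 1) ^ 4 * Ω + (1 * Ω + (1 * Ω + 1 * Ω)) := by
        exact Nat.add_le_add ha (Nat.add_le_add hb (Nat.add_le_add hc hd))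
    _ = (8 * (n + 1) ^ 4 + 3) * Ω := by ring
    _ ≤ 16 * (n + 1) ^ 4 * Ω := Nat.mul_le_mul_right _ (by omega)

end Vale.Agent.P160K
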