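import Vale.Agent.P160K.Cover

/-!
The four regimes and the final two-sided bound.
-/

namespace Vale.Agent.P160K

open Finset Module

variable {n : ℕ}

open Classical in
/-- Configurations whose matrix has a nonzero kernel vector with at least `n / M` zero
coordinates, or lying in a member of the family `𝒲`. -/
noncomputable def BadSet (M n : ℕ) (𝒲 : Finset (Submodule ℝ (Fin n → ℝ))) : Finset (Sgn n) :=
  univ.filter fun σ => ∃ v : Fin n → ℝ, v ≠ 0 ∧ (∀ i, rowSum σ i v = 0) ∧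
    (M * (supp v).card ≤ (M - 1) * n ∨ ∃ W ∈ 𝒲, v ∈ W)

lemma supp_card_ne_zero {v : Fin n → ℝ} (hv : v ≠ 0) : (supp v).card ≠ 0 := by
  intro h
  apply hv
  funext i
  by_contra hi
  have : i ∈ supp v := mem_supp.mpr hi
  rw [card_eq_zero.mp h] at this
  simp at this

lemma supp_card_ne_one {σ : Sgn n} {v : Fin n → ℝ} (hker : ∀ i, rowSum σ i v = 0) :
    (supp v).card ≠ 1 := by
  intro h
  obtain ⟨a, ha⟩ := card_eq_one.mp h
  have h1 := hker a
  unfold rowSum at h1
  rw [Finset.sum_eq_single a] at h1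
  · have h2 : v a ≠ 0 := mem_supp.mp (by rw [ha]; exact mem_singleton_self a)
    exact mul_ne_zero (entry_ne_zero _ _ _) h2 h1
  · intro j _ hj
    have : v j = 0 := by
      by_contra h3
      have : j ∈ supp v := mem_supp.mpr h3
      rw [ha] at this
      exact hj (mem_singleton.mp this)
    simp [this]
  · simp

/-! ### Regime (a): support of size two -/

/-- Index set of regime (a). -/
noncomputable def Ia (n : ℕ) : Finset (Finset (Fin n) × Finset (Fin n)) :=
  by classical exact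
    (ball n 2 ×ˢ ball n 2).filter fun p => p.1.card = 2 ∧ Disjoint p.2 (pick p.1 1)

/-- Events of regime (a). -/
noncomputable def Ba (n : ℕ) : Finset (Sgn n) :=
  by classical exact
    (Ia n).biUnion fun p => Ev (coord p.1) p.1 p.2 ((pick p.1 1)ᶜ \ p.2)

lemma regime_a (hn : 3 ≤ n) :
    2 ^ n * (Ba n).card ≤ (8 * (n + 1) ^ 4) * 2 ^ Fintype.card (Sym2 (Fin n)) := by
  classical
  have hfilter : ∀ p ∈ Ia n, p.1.card = 2 ∧ Disjoint p.2 (pick p.1 1) ∧ p.2.card ≤ 2 := by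
    intro p hp
    simp only [Ia, mem_filter, mem_product] at hp
    exact ⟨hp.2.1, hp.2.2, mem_ball.mp hp.1.2⟩
  have hI : (Ia n).card ≤ (n + 1) ^ 4 := by
    calc (Ia n).card ≤ (ball n 2 ×ˢ ball n 2).card := by
          unfold Ia
          convert card_filter_le _ _
      _ = (ball n 2).card * (ball n 2).card := card_product _ _
      _ ≤ (n + 1) ^ 2 * (n + 1) ^ 2 := Nat.mul_le_mul ball_two_card_le ball_two_card_le
      _ = (n + 1) ^ 4 := by ring
  have := regime_pick (Ia n) (fun p => coord p.1) (fun p => p.1) (fun p => p.2) 1 (n - 3) 2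
    (8 * (n + 1) ^ 4) ((n + 1) ^ 4)
    (fun p hp => by rw [(hfilter p hp).1]; norm_num)
    (fun p hp => (hfilter p hp).2.1)
    (fun p hp => (hfilter p hp).2.2)
    (by omega) hI
    (by
      have h1 : Nat.choose 1 (1 / 2) = 1 := by norm_num
      rw [h1, one_pow, mul_one, pow_one]
      have h2 : 2 ^ n = 8 * 2 ^ (n - 3) := by
        have : n = (n - 3) + 3 := by omega
        conv_lhs => rw [this, pow_add]
        ring
      rw [h2]
      exact le_of_eq (by ring))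
  convert this using 2
  unfold Ba
  rfl

/-! ### Regime (b): small support, three flips -/

lemma arith_core_gen (a b c k r : ℕ) (h : a ^ 49 * c * 512 ≤ b ^ 49 * 27)
    (h' : a ^ 49 * c ≤ b ^ 49) (hab : a ≤ b) :
    a ^ (49 * (k + 1) + r) * c ^ (k + 1) * 512 ≤ b ^ (49 * (k + 1) + r) * 27 := by
  have e2 : a ^ (49 * (k + 1) + r) * c ^ (k + 1) * 512 =
      (a ^ 49 * c) ^ k * (a ^ 49 * c * 512) * a ^ r := by
    rw [pow_add, pow_mul]
    ring
  have e3 : b ^ (49 * (k + 1) + r) * 27 = (b ^ 49) ^ k * (b ^ 49 * 27) * b ^ r := by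
    rw [pow_add, pow_mul]
    ring
  rw [e2, e3]
  exact Nat.mul_le_mul (Nat.mul_le_mul (Nat.pow_le_pow_left h' k) h)
    (Nat.pow_le_pow_left hab r)

lemma arith_core (K r : ℕ) (hK : 1 ≤ K) :
    15606 ^ (49 * K + r) * 5202 ^ K * 512 ≤ 20000 ^ (49 * K + r) * 27 := by
  obtain ⟨k, rfl⟩ : ∃ k, K = k + 1 := ⟨K - 1, by omega⟩
  exact arith_core_gen 15606 20000 5202 k r (by norm_num) (by norm_num) (by norm_num)

lemma arith_b {D K τ : ℕ} (hK : 1 ≤ K) (h49 : 49 * K ≤ τ + 3)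
    (hD : D * 50 ^ (τ + 3) ≤ 51 ^ (τ + 3 + K)) :
    D ^ 2 * 2 ^ (τ + 3 + K) * 3 ^ τ ≤ 1 * 8 ^ τ := by
  set u := τ + 3 with hu
  have h2 := arith_core K (u - 49 * K) hK
  have hu' : 49 * K + (u - 49 * K) = u := by omega
  rw [hu'] at h2
  have e1 : (15606 : ℕ) ^ u = (51 ^ u) ^ 2 * 2 ^ u * 3 ^ u := by
    rw [← pow_mul, mul_comm u 2, pow_mul, ← mul_pow, ← mul_pow]
    norm_num
  have e2 : (5202 : ℕ) ^ K = (51 ^ K) ^ 2 * 2 ^ K := by
    rw [← pow_mul, mul_comm K 2, pow_mul, ← mul_pow]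
    norm_num
  have e3 : (20000 : ℕ) ^ u = 8 ^ u * (50 ^ u) ^ 2 := by
    rw [← pow_mul, mul_comm u 2, pow_mul, ← mul_pow]
    norm_num
  have e4 : (3 : ℕ) ^ u = 3 ^ τ * 27 := by rw [hu, pow_add]; norm_num
  have e5 : (8 : ℕ) ^ u = 8 ^ τ * 512 := by rw [hu, pow_add]; norm_num
  rw [e1, e2, e3, e4, e5] at h2
  rw [pow_add (2 : ℕ) u K]
  rw [pow_add (51 : ℕ) u K] at hD
  have hB50 : 0 < (50 : ℕ) ^ u := by positivity
  generalize (51 : ℕ) ^ u = A at *
  generalize (51 : ℕ) ^ K = Ak at *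
  generalize (50 : ℕ) ^ u = B50 at *
  generalize hP : (2 : ℕ) ^ u = P at *
  generalize hQ : (2 : ℕ) ^ K = Q at *
  generalize hR : (3 : ℕ) ^ τ = R at *
  generalize hE : (8 : ℕ) ^ τ = E at *
  have hB : 0 < B50 ^ 2 * 27 * 512 := by positivity
  apply Nat.le_of_mul_le_mul_right _ hB
  calc D ^ 2 * (P * Q) * R * (B50 ^ 2 * 27 * 512)
      = (D * B50) ^ 2 * (P * Q * R * 27 * 512) := by ring
    _ ≤ (A * Ak) ^ 2 * (P * Q * R * 27 * 512) :=
        Nat.mul_le_mul_right _ (Nat.pow_le_pow_left hD 2)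
    _ = A ^ 2 * P * (R * 27) * (Ak ^ 2 * Q) * 512 := by ring
    _ ≤ E * 512 * B50 ^ 2 * 27 := h2
    _ = 1 * E * (B50 ^ 2 * 27 * 512) := by ring

/-- Index set of regime (b). -/
noncomputable def Ib (n K : ℕ) : Finset (Finset (Fin n) × Finset (Fin n)) :=
  by classical exact
    (ball n K ×ˢ ball n K).filter fun p => 3 ≤ p.1.card ∧ Disjoint p.2 (pick p.1 3)

/-- Events of regime (b). -/
noncomputable def Bb (n K : ℕ) : Finset (Sgn n) :=
  by classical exact
    (Ib n K).biUnion fun p => Ev (coord p.1) p.1 p.2 ((pick p.1 3)ᶜ \ p.2)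

lemma regime_b {K : ℕ} (hK : 1 ≤ K) (h50 : 50 * K ≤ n) :
    2 ^ n * (Bb n K).card ≤ 1 * 2 ^ Fintype.card (Sym2 (Fin n)) := by
  classical
  have hfilter : ∀ p ∈ Ib n K, 3 ≤ p.1.card ∧ Disjoint p.2 (pick p.1 3) ∧ p.2.card ≤ K := by
    intro p hp
    simp only [Ib, mem_filter, mem_product] at hp
    exact ⟨hp.2.1, hp.2.2, mem_ball.mp hp.1.2⟩
  have hI : (Ib n K).card ≤ (ball n K).card ^ 2 := by
    calc (Ib n K).card ≤ (ball n K ×ˢ ball n K).card := by
          unfold Ib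
          convert card_filter_le _ _
      _ = (ball n K).card ^ 2 := by rw [card_product, sq]
  obtain ⟨τ, hτ⟩ : ∃ τ, n = τ + 3 + K := ⟨n - 3 - K, by omega⟩
  have := regime_pick (Ib n K) (fun p => coord p.1) (fun p => p.1) (fun p => p.2) 3 τ K
    1 ((ball n K).card ^ 2)
    (fun p hp => (hfilter p hp).1)
    (fun p hp => (hfilter p hp).2.1)
    (fun p hp => (hfilter p hp).2.2)
    (by omega) hI
    (by
      have h1 : Nat.choose 3 (3 / 2) = 3 := by norm_num [Nat.choose]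
      have h2 : (2 : ℕ) ^ 3 = 8 := by norm_num
      rw [h1, h2, hτ]
      apply arith_b hK (by omega)
      have := ball_card_mul_le (n := n) K (by omega)
      have h3 : n - K = τ + 3 := by omega
      rw [h3] at this
      rw [← hτ]
      exact this)
  convert this using 2
  unfold Bb
  rfl

/-! ### Regime (c): support between `n / 50` and `(1 - 1/M) n` -/

/-- Index set of regime (c). -/
noncomputable def Ic (M n d : ℕ) : Finset (Finset (Fin n) × Finset (Fin n)) :=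
  by classical exact
    (univ : Finset (Finset (Fin n) × Finset (Fin n))).filter fun p =>
      d ≤ p.1.card ∧ M * p.2.card ≤ (M - 1) * n ∧ Disjoint p.2 (pick p.1 d)

/-- Events of regime (c). -/
noncomputable def Bc (M n d : ℕ) : Finset (Sgn n) :=
  by classical exact
    (Ic M n d).biUnion fun p => Ev (coord p.1) p.1 p.2 ((pick p.1 d)ᶜ \ p.2)

lemma card_pairs (n : ℕ) :
    (univ : Finset (Finset (Fin n) × Finset (Fin n))).card = 2 ^ n * 2 ^ n := by
  simp [Finset.card_univ]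

lemma regime_c {M q : ℕ} (hM : 1 ≤ M) (hq : 8 ^ (4 * M) ≤ q) (hn : 2 * M * (2 * q) ≤ n) :
    2 ^ n * (Bc M n (2 * q)).card ≤ 1 * 2 ^ Fintype.card (Sym2 (Fin n)) := by
  classical
  set d := 2 * q with hd
  have hfilter : ∀ p ∈ Ic M n d, d ≤ p.1.card ∧ M * p.2.card ≤ (M - 1) * n ∧
      Disjoint p.2 (pick p.1 d) := by
    intro p hp
    simp only [Ic, mem_filter, mem_univ, true_and] at hp
    exact hp
  have hI : (Ic M n d).card ≤ 2 ^ n * 2 ^ n := by
    rw [← card_pairs n]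
    unfold Ic
    convert card_filter_le _ _
  set ρ := (M - 1) * n / M with hρ
  have hMρ : M * ρ ≤ (M - 1) * n := Nat.mul_div_le _ _
  have hMn : M * n = (M - 1) * n + n := by
    obtain ⟨m, rfl⟩ : ∃ m, M = m + 1 := ⟨M - 1, by omega⟩
    simp only [Nat.add_sub_cancel]
    ring
  have hdρ : d + ρ ≤ n := by
    by_contra h
    push Not at h
    have h1 : M * n + 1 ≤ M * (d + ρ) := by
      calc M * n + 1 ≤ M * (n + 1) := by nlinarith
        _ ≤ M * (d + ρ) := Nat.mul_le_mul_left _ h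
    have h2 : M * (d + ρ) = M * d + M * ρ := by ring
    have h3 : 2 * M * d = 2 * (M * d) := by ring
    omega
  obtain ⟨τ, hτ⟩ : ∃ τ, n = τ + d + ρ := ⟨n - d - ρ, by omega⟩
  have h2Mτ : n ≤ 2 * M * τ := by
    have h1 : M * n = M * τ + M * d + M * ρ := by rw [hτ]; ring
    have h2 : M * ((M - 1) * n) = M * ((M - 1) * n) := rfl
    have h3 : 2 * M * d = 2 * (M * d) := by ring
    have h4 : 2 * M * τ = 2 * (M * τ) := by ring
    omega
  have := regime_pick (Ic M n d) (fun p => coord p.1) (fun p => p.1) (fun p => p.2) d τ ρ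
    1 (2 ^ n * 2 ^ n)
    (fun p hp => (hfilter p hp).1)
    (fun p hp => (hfilter p hp).2.2)
    (fun p hp => by
      rw [hρ, Nat.le_div_iff_mul_le (by omega), mul_comm]
      exact (hfilter p hp).2.1)
    (by omega) hI
    (by
      rw [one_mul]
      apply power_trick (M := M) (D := d + 1) (by omega) (by rw [hd]; exact central_bound' q)
      have e : (2 ^ n * 2 ^ n * 2 ^ n : ℕ) ^ (4 * M) = (8 ^ (4 * M)) ^ n := by
        rw [show (2 ^ n * 2 ^ n * 2 ^ n : ℕ) = 8 ^ n by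
          rw [← mul_pow, ← mul_pow]; norm_num]
        rw [← pow_mul, ← pow_mul, mul_comm]
      rw [e]
      calc (8 ^ (4 * M)) ^ n ≤ (d + 1) ^ n := Nat.pow_le_pow_left (by omega) n
        _ ≤ (d + 1) ^ (2 * M * τ) := Nat.pow_le_pow_right (by omega) h2Mτ)
  convert this using 2
  unfold Bc
  rfl

/-! ### Regime (d): large support in a member of the family -/

/-- Index set of regime (d). -/
noncomputable def Id (M n d : ℕ) (𝒲 : Finset (Submodule ℝ (Fin n → ℝ))) :
    Finset (Submodule ℝ (Fin n → ℝ) × Finset (Fin n) × Finset (Fin n)) :=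
  by classical exact
    (𝒲 ×ˢ (univ : Finset (Finset (Fin n) × Finset (Fin n)))).filter fun p =>
      d ≤ p.2.1.card ∧ M * p.2.2.card ≤ n ∧ Disjoint p.2.2 (pick p.2.1 d)

/-- Events of regime (d). -/
noncomputable def Bd (M n d : ℕ) (𝒲 : Finset (Submodule ℝ (Fin n → ℝ))) : Finset (Sgn n) :=
  by classical exact
    (Id M n d 𝒲).biUnion fun p => Ev p.1 p.2.1 p.2.2 ((pick p.2.1 d)ᶜ \ p.2.2)

lemma arith_d {M n D : ℕ} (hM : 3 ≤ M) (h1 : 8 ^ (4 * M) * (8 * M) ^ (2 * M - 3) ≤ n)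
    (h2 : n ≤ 8 * M * D) : n ^ (2 * M - 4) * 8 ^ (4 * M) ≤ D ^ (2 * M - 3) := by
  have hc : 0 < (8 * M) ^ (2 * M - 3) := by positivity
  apply Nat.le_of_mul_le_mul_right _ hc
  calc n ^ (2 * M - 4) * 8 ^ (4 * M) * (8 * M) ^ (2 * M - 3)
      = n ^ (2 * M - 4) * (8 ^ (4 * M) * (8 * M) ^ (2 * M - 3)) := by ring
    _ ≤ n ^ (2 * M - 4) * n := Nat.mul_le_mul_left _ h1
    _ = n ^ (2 * M - 3) := by
        rw [← pow_succ]
        congr 1
        omega
    _ ≤ (8 * M * D) ^ (2 * M - 3) := Nat.pow_le_pow_left h2 _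
    _ = D ^ (2 * M - 3) * (8 * M) ^ (2 * M - 3) := by rw [mul_pow, mul_comm]

lemma regime_d {M : ℕ} (hM : 3 ≤ M) (hn : 8 ^ (4 * M) * (8 * M) ^ (2 * M - 3) ≤ n)
    (𝒲 : Finset (Submodule ℝ (Fin n → ℝ))) (h𝒲 : 𝒲.card ^ (2 * M) ≤ n ^ ((M - 2) * n)) :
    2 ^ n * (Bd M n (2 * (n / (8 * M))) 𝒲).card ≤ 1 * 2 ^ Fintype.card (Sym2 (Fin n)) := by
  classical
  set q := n / (8 * M) with hq
  set d := 2 * q with hd
  have hfilter : ∀ p ∈ Id M n d 𝒲, d ≤ p.2.1.card ∧ M * p.2.2.card ≤ n ∧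
      Disjoint p.2.2 (pick p.2.1 d) := by
    intro p hp
    simp only [Id, mem_filter, mem_product, mem_univ, and_true] at hp
    exact hp.2
  have hI : (Id M n d 𝒲).card ≤ 𝒲.card * (2 ^ n * 2 ^ n) := by
    rw [← card_pairs n, ← card_product]
    unfold Id
    convert card_filter_le _ _
  set ρ := n / M with hρ
  have hMρ : M * ρ ≤ n := Nat.mul_div_le _ _
  have h8q : 8 * M * q ≤ n := Nat.mul_div_le _ _
  have hnq : n ≤ 8 * M * (d + 1) := by
    have h1 : n < 8 * M * (q + 1) := by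
      rw [hq]
      exact Nat.lt_mul_div_succ n (by omega)
    have h2 : 8 * M * (q + 1) ≤ 8 * M * (d + 1) := Nat.mul_le_mul_left _ (by omega)
    omega
  have hMd : 4 * (M * d) ≤ n := by
    have : 4 * (M * d) = 8 * M * q := by rw [hd]; ring
    omega
  have hM3 : 3 * d ≤ M * d := Nat.mul_le_mul_right _ hM
  have hM3' : 3 * ρ ≤ M * ρ := Nat.mul_le_mul_right _ hM
  have hdρ : d + ρ ≤ n := by omega
  obtain ⟨τ, hτ⟩ : ∃ τ, n = τ + d + ρ := ⟨n - d - ρ, by omega⟩
  have h2Mτ : (2 * M - 3) * n ≤ 2 * M * τ := by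
    have h1 : M * n = M * τ + M * d + M * ρ := by rw [hτ]; ring
    have h4 : 2 * M * τ = 2 * (M * τ) := by ring
    have h5 : (2 * M - 3) * n + 3 * n = 2 * (M * n) := by
      obtain ⟨m, rfl⟩ : ∃ m, M = m + 3 := ⟨M - 3, by omega⟩
      have : 2 * (m + 3) - 3 = 2 * m + 3 := by omega
      rw [this]
      ring
    omega
  have := regime_pick (Id M n d 𝒲) (fun p => p.1) (fun p => p.2.1) (fun p => p.2.2) d τ ρ
    1 (𝒲.card * (2 ^ n * 2 ^ n))
    (fun p hp => (hfilter p hp).1)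
    (fun p hp => (hfilter p hp).2.2)
    (fun p hp => by
      rw [hρ, Nat.le_div_iff_mul_le (by omega), mul_comm]
      exact (hfilter p hp).2.1)
    (by omega) hI
    (by
      rw [one_mul]
      apply power_trick (M := M) (D := d + 1) (by omega) (by rw [hd]; exact central_bound' q)
      have hkey := arith_d hM hn hnq
      have e1 : (𝒲.card * (2 ^ n * 2 ^ n) * 2 ^ n : ℕ) ^ (4 * M) =
          (𝒲.card ^ (2 * M)) ^ 2 * (8 ^ (4 * M)) ^ n := by
        rw [show (𝒲.card * (2 ^ n * 2 ^ n) * 2 ^ n : ℕ) = 𝒲.card * 8 ^ n by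
          rw [mul_assoc, ← mul_pow, ← mul_pow]; norm_num]
        rw [mul_pow, ← pow_mul, ← pow_mul, ← pow_mul]
        congr 2
        · ring
        · ring
      rw [e1]
      calc (𝒲.card ^ (2 * M)) ^ 2 * (8 ^ (4 * M)) ^ n
          ≤ (n ^ ((M - 2) * n)) ^ 2 * (8 ^ (4 * M)) ^ n :=
            Nat.mul_le_mul_right _ (Nat.pow_le_pow_left h𝒲 2)
        _ = (n ^ (2 * M - 4) * 8 ^ (4 * M)) ^ n := by
            have e2 : (n ^ ((M - 2) * n)) ^ 2 = (n ^ (2 * M - 4)) ^ n := by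
              rw [← pow_mul, ← pow_mul]
              congr 1
              have : 2 * M - 4 = (M - 2) * 2 := by omega
              rw [this]
              ring
            rw [mul_pow, e2]
        _ ≤ ((d + 1) ^ (2 * M - 3)) ^ n := Nat.pow_le_pow_left hkey n
        _ = (d + 1) ^ ((2 * M - 3) * n) := by rw [← pow_mul]
        _ ≤ (d + 1) ^ (2 * M * τ) := Nat.pow_le_pow_right (by omega) h2Mτ)
  convert this using 2
  unfold Bd
  rfl

end Vale.Agent.P160K
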